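import Vale.Agent.P290Z.Spec1

/-!
# P290: tools for the crossing lemma
-/

open Set Filter Metric
open scoped Topology Manifold ContDiff

namespace Vale.Agent.P290Z.Crx

open Vale.Agent.P290 Vale.Agent.P290.H805

/-- entire functions which are small on a half plane and close to one near one -/
theorem exists_m {θ : ℝ} (hθ : 0 < θ) : ∃ m : ℂ → ℂ, Differentiable ℂ m ∧
    (∀ z : ℂ, z.re ≤ -1 / 4 → ‖m z‖ ≤ θ) ∧ ∀ z : ℂ, ‖z - 1‖ ≤ 1 / 16 → ‖m z - 1‖ ≤ θ := by
  have key : ∀ w : ℂ, ‖w‖ ≤ 1 / 4 → ‖w ^ 2 * (3 - 2 * w)‖ ≤ 7 / 8 * ‖w‖ := fun w hw => by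
    have h1 : ‖3 - 2 * w‖ ≤ 7 / 2 := by
      refine (norm_sub_le _ _).trans ?_
      rw [norm_mul, Complex.norm_ofNat, Complex.norm_ofNat]
      linarith
    rw [norm_mul, norm_pow]
    nlinarith [norm_nonneg w, mul_le_mul hw h1 (norm_nonneg _) (by norm_num)]
  have h : ∀ n : ℕ, ∃ m : ℂ → ℂ, Differentiable ℂ m ∧
      (∀ z : ℂ, z.re ≤ -1 / 4 → ‖m z‖ ≤ (7 / 8) ^ n / 4) ∧
      ∀ z : ℂ, ‖z - 1‖ ≤ 1 / 16 → ‖m z - 1‖ ≤ (7 / 8) ^ n / 4 := by
    intro n
    induction n with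
    | zero =>
      refine ⟨fun z => Complex.exp (4 * (z - 1) / 2), by fun_prop, fun z hz => ?_, fun z hz => ?_⟩
      · have h1 : (4 * (z - 1) / 2).re = 2 * (z.re - 1) := by
          simp
          ring
        have h2 := Real.add_one_le_exp (-(z.re - 1))
        have h3 : Real.exp (2 * (z.re - 1)) * (Real.exp (-(z.re - 1)) * Real.exp (-(z.re - 1))) =
            1 := by
          rw [← Real.exp_add, ← Real.exp_add, ← Real.exp_zero]
          congr 1
          ring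
        rw [Complex.norm_exp, h1, pow_zero]
        nlinarith [Real.exp_pos (2 * (z.re - 1)), mul_self_le_mul_self (by norm_num : (0 : ℝ) ≤ 2)
          (by linarith : 2 ≤ Real.exp (-(z.re - 1)))]
      · have h1 : ‖4 * (z - 1) / 2‖ ≤ 1 / 8 := by
          rw [norm_div, norm_mul, Complex.norm_ofNat, Complex.norm_ofNat]
          linarith
        refine (Complex.norm_exp_sub_one_le (by linarith)).trans ?_
        rw [pow_zero]
        linarith
    | succ n ih =>
      obtain ⟨m, h1, h2, h3⟩ := ih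
      have h4 : ((7 : ℝ) / 8) ^ n ≤ 1 := pow_le_one₀ (by norm_num) (by norm_num)
      refine ⟨fun z => m z ^ 2 * (3 - 2 * m z), by fun_prop, fun z hz => ?_, fun z hz => ?_⟩
      · refine (key _ (by linarith [h2 z hz])).trans ?_
        rw [pow_succ]
        linarith [h2 z hz]
      · have h5 : m z ^ 2 * (3 - 2 * m z) - 1 = -((1 - m z) ^ 2 * (3 - 2 * (1 - m z))) := by ring
        have h6 := h3 z hz
        rw [norm_sub_rev] at h6
        rw [h5, norm_neg]
        refine (key _ (by linarith)).trans ?_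
        rw [pow_succ]
        linarith
  obtain ⟨n, hn⟩ := exists_pow_lt_of_lt_one hθ (by norm_num : (7 : ℝ) / 8 < 1)
  obtain ⟨m, h1, h2, h3⟩ := h n
  have h4 : (0 : ℝ) < (7 / 8) ^ n := by positivity
  exact ⟨m, h1, fun z hz => by linarith [h2 z hz], fun z hz => by linarith [h3 z hz]⟩

section
variable {V W X : Type} [NormedAddCommGroup V] [NormedSpace ℂ V] [NormedAddCommGroup W]
  [NormedSpace ℂ W] [TopologicalSpace X] [ChartedSpace C2 X]

theorem md_comp {f : V → X} {g : W → V} {x : W} (hf : MD f (g x)) (hg : DifferentiableAt ℂ g x) :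
    MD (fun y => f (g y)) x := MDifferentiableAt.comp x hf hg.mdifferentiableAt

theorem ev_comp {f : V → X} {g : W → V} {x : W} (hf : ∀ᶠ z in 𝓝 (g x), MD f z)
    (hg : ∀ᶠ y in 𝓝 x, DifferentiableAt ℂ g y) : ∀ᶠ y in 𝓝 x, MD (fun y => f (g y)) y := by
  filter_upwards [hg.self_of_nhds.continuousAt.eventually hf, hg] with y h1 h2
  exact md_comp h1 h2

open Classical in
/-- patching two maps along a zone -/
theorem patch {L : Set V} {u : V → ℝ} (hu : Continuous u) {a b c : ℝ} (h1 : a ≤ c) (h2 : c ≤ b)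
    {f g : V → X} (hf : HN (L ∩ {x | a ≤ u x}) f) (hg : HN (L ∩ {x | u x ≤ b}) g)
    (h : ∀ᶠ x in 𝓝ˢ (L ∩ {x | a ≤ u x ∧ u x ≤ b}), f x = g x) :
    HN L fun x => if c < u x then f x else g x := by
  rw [HN, eventually_nhdsSet_iff_forall] at hf hg ⊢
  rw [eventually_nhdsSet_iff_forall] at h
  intro x hx
  rcases lt_trichotomy (u x) c with hc | hc | hc
  · have e : (fun x => if c < u x then f x else g x) =ᶠ[𝓝 x] g := by
      filter_upwards [hu.continuousAt.eventually_lt_const hc] with y hy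
      exact if_neg hy.not_gt
    filter_upwards [e.eventuallyEq_nhds, hg x ⟨hx, hc.le.trans h2⟩] with y a1 a2
    exact MDifferentiableAt.congr_of_eventuallyEq a2 a1
  · have e : (fun x => if c < u x then f x else g x) =ᶠ[𝓝 x] f := by
      filter_upwards [h x ⟨hx, hc ▸ h1, hc ▸ h2⟩] with y hy
      rw [← hy, ite_self]
    filter_upwards [e.eventuallyEq_nhds, hf x ⟨hx, h1.trans hc.ge⟩] with y a1 a2
    exact MDifferentiableAt.congr_of_eventuallyEq a2 a1
  · have e : (fun x => if c < u x then f x else g x) =ᶠ[𝓝 x] f := by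
      filter_upwards [hu.continuousAt.eventually_const_lt hc] with y hy
      exact if_pos hy
    filter_upwards [e.eventuallyEq_nhds, hf x ⟨hx, h1.trans hc.le⟩] with y a1 a2
    exact MDifferentiableAt.congr_of_eventuallyEq a2 a1

end

variable {X : Type} [MetricSpace X] [ChartedSpace C2 X] [IsManifold 𝓘(ℂ, C2) ω X]

/-- A thin tube along the long curve which agrees with `G` to the first order, approximately. -/
theorem exists_trans (hInv : StInv) (hSpr : StSpr) {G : ℂ × C2 → X} {γ : ℂ → X}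
    (hγ : ∀ a, MD γ a) {σ ρ : ℝ} (hρ : 0 < ρ) {M : Set (ℂ × X)} {ψ : ℂ × X → C2} (hM : IsOpen M)
    (hψ : CompHol M ψ)
    (h1 : ∀ a : ℂ, ‖a‖ ≤ σ → G (a, 0) = γ a ∧ ∀ t : C2, ‖t‖ < ρ → (∀ᶠ y in 𝓝 (a, t), MD G y) ∧
      (a, G (a, t)) ∈ M ∧ ψ (a, G (a, t)) = t)
    (h2 : ∀ p ∈ M, G (p.1, ψ p) = p.2) (R : ℝ) {δ : ℝ} (hδ : 0 < δ) :
    ∃ (Γ : ℂ × C2 → X) (e : ℂ × C2 → C2) (l : ℝ), 0 < l ∧
      (∀ (a : ℂ) (t : C2), ‖a‖ ≤ R → ‖t‖ ≤ l → ∀ᶠ y in 𝓝 (a, t), MD Γ y) ∧
      ∀ (a : ℂ) (t : C2), ‖a‖ ≤ σ → ‖t‖ < l → DifferentiableAt ℂ e (a, t) ∧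
        ‖e (a, t)‖ ≤ δ * ‖t‖ ∧ Γ (a, t) = G (a, t + e (a, t)) := by
  have hK : Good (closedBall (0 : ℂ) (max R σ)) := ⟨isCompact_closedBall _ _, convex_closedBall _ _⟩
  obtain ⟨Γ, g1, g2, g3⟩ := hSpr ℂ X _ hK γ (Eventually.of_forall hγ)
  obtain ⟨ρ', hρ', -, U, N, φ, u1, u2, n1, n2, -, n4, n5⟩ := hInv ℂ X _ hK.1 Γ g1 g3 1 one_pos
  have hU : ∀ a : ℂ, ‖a‖ ≤ max R σ → a ∈ U ∧ Γ (a, 0) = γ a := fun a ha =>
    ⟨u2 (mem_closedBall_zero_iff.2 ha), g2.self_of_nhdsSet a (mem_closedBall_zero_iff.2 ha)⟩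
  have hΓ : ∀ y : ℂ × C2, y.1 ∈ U → ‖y.2‖ < ρ' → ∀ᶠ z in 𝓝 y, MD Γ z := fun y a1 a2 => by
    filter_upwards [continuous_fst.continuousAt.eventually (u1.mem_nhds a1),
      (continuous_snd.norm.continuousAt (x := y)).eventually_lt_const a2] with z b1 b2
    exact (n4 z.1 b1 z.2 b2).1
  -- the transition from `G` to `Γ`
  obtain ⟨r, hr, hrN⟩ := Tube.exists_uniform (isCompact_closedBall (0 : ℂ) σ) (0 : C2)
    {y | ‖y.2‖ < ρ ∧ (y.1, G y) ∈ N} fun a ha => by
      have b1 := mem_closedBall_zero_iff.1 ha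
      have b2 := hU a (le_max_of_le_right b1)
      refine inter_mem ((continuous_snd.norm.continuousAt (x := (a, (0 : C2)))).eventually_lt_const
        (by simpa using hρ)) ?_
      refine (continuous_fst.continuousAt.prodMk
        ((h1 a b1).2 0 (by simpa using hρ)).1.self_of_nhds.continuousAt).eventually
        (n1.mem_nhds ?_)
      have b3 := (n4 a b2.1 0 (by simpa using hρ')).2.2.1
      rwa [b2.2, ← (h1 a b1).1] at b3
  have hQ : Good (closedBall (0 : ℂ) σ ×ˢ closedBall (0 : C2) r) :=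
    ⟨(isCompact_closedBall _ _).prod (isCompact_closedBall _ _),
      (convex_closedBall _ _).prod (convex_closedBall _ _)⟩
  have hH : HolNear (closedBall (0 : ℂ) σ ×ˢ closedBall (0 : C2) r) fun y => φ (y.1, G y) := by
    refine eventually_nhdsSet_iff_forall.2 fun y hy => ?_
    obtain ⟨b1, b2⟩ := hrN y.1 hy.1 y.2 hy.2
    have b3 := ((h1 y.1 (mem_closedBall_zero_iff.1 hy.1)).2 y.2 b1).1
    filter_upwards [b3, (continuous_fst.continuousAt.prodMk
      b3.self_of_nhds.continuousAt).eventually (n1.mem_nhds b2)] with z c1 c2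
    exact n2 _ _ _ z differentiableAt_fst c1 c2
  -- the tolerance
  obtain ⟨η, hη, hηD⟩ := Tube.exists_uniform hQ.1 (0 : C2)
    {y | ‖φ (y.1.1, G y.1) + y.2‖ < ρ' ∧ (y.1.1, Γ (y.1.1, φ (y.1.1, G y.1) + y.2)) ∈ M ∧
      ‖ψ (y.1.1, Γ (y.1.1, φ (y.1.1, G y.1) + y.2)) - y.1.2‖ < δ * r} fun y hy => by
      obtain ⟨b1, b2⟩ := hrN y.1 hy.1 y.2 hy.2
      obtain ⟨b3, b4, b5⟩ := n5 _ b2
      obtain ⟨-, b6, b7⟩ := (h1 y.1 (mem_closedBall_zero_iff.1 hy.1)).2 y.2 b1
      have c1 : DifferentiableAt ℂ (fun z : (ℂ × C2) × C2 => φ (z.1.1, G z.1) + z.2) (y, 0) :=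
        (DifferentiableAt.comp (g := fun y => φ (y.1, G y)) (y, (0 : C2))
          (hH.self_of_nhdsSet y hy) differentiableAt_fst).add
          differentiableAt_snd
      have c2 : MD (fun z : (ℂ × C2) × C2 => Γ (z.1.1, φ (z.1.1, G z.1) + z.2)) (y, 0) :=
        md_comp (g := fun z : (ℂ × C2) × C2 => (z.1.1, φ (z.1.1, G z.1) + z.2))
          (n4 _ b3 _ (by simpa using b4)).1 (differentiableAt_fst.fst.prodMk c1)
      have c3 : Γ (y.1, φ (y.1, G y) + 0) = G y := by rw [add_zero]; exact b5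
      have c4 : (y.1, Γ (y.1, φ (y.1, G y) + 0)) ∈ M := by rw [c3]; exact b6
      have c5 := hψ _ (fun z : (ℂ × C2) × C2 => z.1.1) _ (y, 0) differentiableAt_fst.fst c2 c4
      refine inter_mem (c1.continuousAt.norm.eventually_lt_const (by simpa using b4))
        (inter_mem ((continuous_fst.fst.continuousAt.prodMk c2.continuousAt).eventually
          (hM.mem_nhds c4)) ((c5.sub differentiableAt_fst.snd).continuousAt.norm.eventually_lt_const
            ?_))
      change ‖ψ (y.1, Γ (y.1, φ (y.1, G y) + 0)) - y.2‖ < δ * r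
      rw [c3, b7, sub_self, norm_zero]
      positivity
  obtain ⟨H, k1, k2⟩ := okaWeil_vec hQ.1 hQ.2 hH (η / 2) (half_pos hη)
  have k3 : Differentiable ℂ fun y : ℂ × C2 => H y - H (y.1, 0) := by fun_prop
  obtain ⟨T, t1, t2, t3⟩ : ∃ T : ℂ × C2 → C2, Differentiable ℂ T ∧ (∀ a, T (a, 0) = 0) ∧
      ∀ y ∈ closedBall (0 : ℂ) σ ×ˢ closedBall (0 : C2) r, ‖T y‖ < ρ' ∧ (y.1, Γ (y.1, T y)) ∈ M ∧
        ‖ψ (y.1, Γ (y.1, T y)) - y.2‖ < δ * r := by
    refine ⟨_, k3, fun a => sub_self _, fun y hy => ?_⟩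
    have b1 := mem_closedBall_zero_iff.1 hy.1
    have b2 := hU y.1 (le_max_of_le_right b1)
    have b3 := k2 (y.1, 0) ⟨hy.1, mem_closedBall_self hr.le⟩
    have b4 := (n4 y.1 b2.1 0 (by simpa using hρ')).2.2.2
    rw [b2.2, ← (h1 y.1 b1).1] at b4
    have b5 := hηD y hy (H y - H (y.1, 0) - φ (y.1, G y)) (by
      rw [b4, sub_zero] at b3
      rw [dist_zero_right, sub_right_comm]
      linarith [norm_sub_le (H y - φ (y.1, G y)) (H (y.1, 0)), k2 y hy])
    simpa only [mem_ofPred_eq, add_sub_cancel] using b5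
  obtain ⟨l, hl, hlT⟩ := Tube.exists_uniform hK.1 (0 : C2) {y | ‖T y‖ < ρ'} fun a _ =>
    t1.continuous.norm.continuousAt.eventually_lt_const (by simpa only [t2, norm_zero] using hρ')
  have d1 : ∀ y ∈ closedBall (0 : ℂ) σ ×ˢ closedBall (0 : C2) r,
      DifferentiableAt ℂ (fun y : ℂ × C2 => ψ (y.1, Γ (y.1, T y)) - y.2) y := fun y hy =>
    (hψ _ _ _ y differentiableAt_fst (md_comp (g := fun y : ℂ × C2 => (y.1, T y))
      (n4 _ (hU _ (le_max_of_le_right (mem_closedBall_zero_iff.1 hy.1))).1 _ (t3 y hy).1).1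
      (differentiableAt_fst.prodMk (t1 y))) (t3 y hy).2.1).sub differentiableAt_snd
  refine ⟨fun y => Γ (y.1, T y), fun y => ψ (y.1, Γ (y.1, T y)) - y.2, min l r, lt_min hl hr,
    fun a t ha ht => ?_, fun a t ha ht => ?_⟩
  · have b1 := le_max_of_le_left (c := σ) ha
    refine ev_comp (g := fun y : ℂ × C2 => (y.1, T y)) (hΓ _ (hU a b1).1 ?_)
      (Eventually.of_forall fun y => differentiableAt_fst.prodMk (t1 y))
    exact hlT a (mem_closedBall_zero_iff.2 b1) t (by simpa using ht.trans (min_le_left _ _))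
  · have b1 := mem_closedBall_zero_iff.2 ha
    have b2 := ht.trans_le (min_le_right _ _)
    refine ⟨d1 _ ⟨b1, mem_closedBall_zero_iff.2 b2.le⟩, ?_, ?_⟩
    · have b3 : ψ (a, Γ (a, T (a, 0))) - 0 = 0 := by
        rw [t2, (hU a (le_max_of_le_right ha)).2, ← (h1 a ha).1,
          ((h1 a ha).2 0 (by simpa using hρ)).2.2, sub_self]
      have b4 := Complex.dist_le_div_mul_dist_of_mapsTo_ball
        (f := fun t : C2 => ψ (a, Γ (a, T (a, t))) - t) (c := 0) (R₁ := r) (R₂ := δ * r)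
        (fun t ht => (DifferentiableAt.comp t (d1 (a, t) ⟨b1, ball_subset_closedBall ht⟩)
          ((differentiableAt_const a).prodMk differentiableAt_id)).differentiableWithinAt)
        (fun t ht => by
          rw [b3, mem_closedBall_zero_iff]
          exact (t3 (a, t) ⟨b1, ball_subset_closedBall ht⟩).2.2.le)
        (mem_ball_zero_iff.2 b2)
      rwa [b3, dist_zero_right, dist_zero_right, mul_div_cancel_right₀ _ hr.ne'] at b4
    · rw [add_sub_cancel]
      exact (h2 _ (t3 (a, t) ⟨b1, mem_closedBall_zero_iff.2 b2.le⟩).2.1).symm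

end Vale.Agent.P290Z.Crx
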